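import Vale.Agent.P235.H606.PDefs
import Vale.Agent.P235.ST.H742.Contr
import Vale.Agent.P235.H134.Grid.Planar

/-!
# Nesting theorem: statements (helper750)

A graph without a `K_r` minor and with large `c₁` has a minor with large `c₁`, all of whose branch
sets induce graphs with large `c₁`.  Statements only: each block proves `theorem … : XStmt`.
-/

set_option autoImplicit false

namespace Vale.Agent.P235.H750

open SimpleGraph Vale.Agent.P235 Vale.Agent.P235.H134 Vale.Agent.P235.H606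
open Vale.Agent.P235.ST.H742

/-- (RET) connected random retractions onto any set, in graphs without a `K_r` minor -/
def RetStmt : Prop :=
  ∀ (V : Type) [Finite V] (G : SimpleGraph V) (ℓ : Sym2 V → ℝ) (r : ℕ) (X : Set V),
    G.Connected → Kr.NoK r G → (∀ e ∈ G.edgeSet, 0 < ℓ e) → X.Nonempty →
    ∃ (ι : Type) (_ : Fintype ι) (w : ι → ℝ) (π : ι → V → V), (∀ i, 0 ≤ w i) ∧ ∑ i, w i = 1 ∧
      (∀ i, RContr G X (π i)) ∧
      ∀ u v, G.Adj u v → ∑ i, w i * pathDist G ℓ (π i u) (π i v) ≤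
        10 ^ 6 * ((r : ℝ) + 2) ^ 6 * ℓ s(u, v)

/-- the quotient of `G` by a map `p` onto `O` -/
def quotO {V : Type} (G : SimpleGraph V) (O : Set V) (p : V → O) : SimpleGraph O where
  Adj a b := a ≠ b ∧ ∃ u v, G.Adj u v ∧ p u = a ∧ p v = b
  symm := ⟨fun _ _ ⟨h, u, v, huv, hu, hv⟩ => ⟨h.symm, v, u, huv.symm, hv, hu⟩⟩
  loopless := ⟨fun _ h => h.1 rfl⟩

/-- (CMP) contracting well separated balls hardly changes the distances of the centres -/
def CmpStmt : Prop :=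
  ∀ (V : Type) [Finite V] (G : SimpleGraph V) (ℓ ℓ' : Sym2 V → ℝ) (O : Set V) (R : V → ℝ),
    G.Connected → (∀ e ∈ G.edgeSet, 0 < ℓ e) → (∀ e ∈ G.edgeSet, 0 < ℓ' e) →
    (∀ o ∈ O, 0 < R o) → (O.PairwiseDisjoint fun o => ball G ℓ o (5 * R o)) →
    (∀ u v, G.Adj u v → (¬ ∃ o ∈ O, u ∈ ball G ℓ o (R o) ∧ v ∈ ball G ℓ o (R o)) →
      ℓ' s(u, v) = ℓ s(u, v)) →
    ∀ a ∈ O, ∀ b ∈ O, pathDist G ℓ a b ≤ 4 * pathDist G ℓ' a b

/-- (SPA) the metric of the centres of well separated balls, from the quotients whose branch sets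
contain the balls -/
def SpaStmt : Prop :=
  ∀ (V : Type) [Finite V] (G : SimpleGraph V) (ℓ : Sym2 V → ℝ) (r : ℕ) (O : Set V) (R : V → ℝ)
    (C : ℝ), G.Connected → Kr.NoK r G → (∀ e ∈ G.edgeSet, 0 < ℓ e) → O.Nonempty → 1 ≤ C →
    (∀ o ∈ O, 0 < R o) → (O.PairwiseDisjoint fun o => ball G ℓ o (5 * R o)) →
    (∀ p : V → O, (∀ o : O, ∀ v ∈ ball G ℓ o (R o), p v = o) →
      (∀ o : O, (G.induce {v | p v = o}).Connected) → (quotO G O p).Connected →
      DistortionLE (quotO G O p) C) →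
    EmbedsL1 (fun x y : O => pathDist G ℓ x y) (10 ^ 8 * ((r : ℝ) + 2) ^ 6 * C)

/-- (VITS) bad balls with disjoint enlargements, small ones first; `P`: bad sets -/
def VitSStmt : Prop :=
  ∀ (V : Type) [Finite V] (G : SimpleGraph V) (ℓ : Sym2 V → ℝ) (P : Set V → Prop), G.Connected →
    (∀ e ∈ G.edgeSet, 0 < ℓ e) → (∀ v, ¬ P {v}) →
    ∃ (O : Set V) (R : V → ℝ), (∀ o ∈ O, 0 < R o ∧ P (ball G ℓ o (R o))) ∧
      (O.PairwiseDisjoint fun o => ball G ℓ o (5 * R o)) ∧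
      ∀ (v : V) (ρ : ℝ), 0 ≤ ρ → (∀ o ∈ O, 15 * ρ < pathDist G ℓ v o) → ¬ P (ball G ℓ v ρ)

/-- (NEST) `c₁` is bounded by the `c₁` of the connected sets without property `P` and the `c₁` of
the quotients of `G` all of whose fibres have property `P` (`P` any property which passes to larger
sets) -/
def NestStmt : Prop :=
  ∃ K : ℝ, 1 ≤ K ∧ ∀ (r : ℕ) (C C' : ℝ) (V : Type) [Finite V] (G : SimpleGraph V)
    (P : Set V → Prop), 1 ≤ C → 1 ≤ C' → G.Connected → Kr.NoK r G →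
    (∀ A B : Set V, A ⊆ B → P A → P B) →
    (∀ A : Set V, (G.induce A).Connected → ¬ P A → DistortionLE (G.induce A) C) →
    (∀ (W : Type) [Finite W] (Q : SimpleGraph W) (p : V → W), Q.Connected →
      (∀ a, (G.induce {v | p v = a}).Connected ∧ P {v | p v = a}) →
      (∀ a b, Q.Adj a b → ∃ u v, G.Adj u v ∧ p u = a ∧ p v = b) →
      (∀ u v, G.Adj u v → p u ≠ p v → Q.Adj (p u) (p v)) → DistortionLE Q C') →
    DistortionLE G (K * ((r : ℝ) + 2) ^ 9 * (C + C'))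

/-- `G` has a minor `Q` with `c₁(Q) > C'` all of whose branch sets induce graphs with `c₁ > C` -/
def BadMinor {V : Type} (G : SimpleGraph V) (C C' : ℝ) : Prop :=
  ∃ (W : Type) (_ : Finite W) (Q : SimpleGraph W) (μ : W → Set V), Q.Connected ∧
    ¬ DistortionLE Q C' ∧ (∀ a, (G.induce (μ a)).Connected ∧ ¬ DistortionLE (G.induce (μ a)) C) ∧
    (∀ a b, a ≠ b → Disjoint (μ a) (μ b)) ∧ ∀ a b, Q.Adj a b → ∃ x ∈ μ a, ∃ y ∈ μ b, G.Adj x y

/-- (SELF) a finite connected graph of large `c₁`, no minor excluded, has a minor of large `c₁` all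
of whose branch sets have large `c₁` -/
def SelfStmt : Prop :=
  ∀ C : ℝ, ∃ K : ℝ, ∀ (V : Type) [Finite V] (G : SimpleGraph V), G.Connected →
    ¬ DistortionLE G K → BadMinor G C C

/-- (COMPO) excluded minors: no model of `H₂` whose branch sets all have a minor `H₁` -/
def CompoStmt : Prop :=
  ∃ K : ℝ, 1 ≤ K ∧ ∀ (W₁ W₂ : Type) [Finite W₁] [Finite W₂] (H₁ : SimpleGraph W₁)
    (H₂ : SimpleGraph W₂) (C₁ C₂ : ℝ) (r : ℕ) (V : Type) [Finite V] (G : SimpleGraph V),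
    1 ≤ C₁ → 1 ≤ C₂ → Free H₁ C₁ → Free H₂ C₂ → G.Connected → Kr.NoK r G →
    (¬ ∃ μ : W₂ → Set V, (∀ a, (G.induce (μ a)).Connected ∧ IsMinor H₁ (G.induce (μ a))) ∧
      (∀ a b, a ≠ b → Disjoint (μ a) (μ b)) ∧
      ∀ a b, H₂.Adj a b → ∃ x ∈ μ a, ∃ y ∈ μ b, G.Adj x y) →
    DistortionLE G (K * ((r : ℝ) + 2) ^ 9 * (C₁ + C₂))

/-- `(H, h)` is a rooted minor of `(G, b)`: the branch set of `h` contains `b` -/
def RMinor {W V : Type} (H : SimpleGraph W) (h : W) (G : SimpleGraph V) (b : V) : Prop :=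
  ∃ μ : W → Set V, (∀ a, (G.induce (μ a)).Connected) ∧ (∀ a b, a ≠ b → Disjoint (μ a) (μ b)) ∧
    (∀ a b, H.Adj a b → ∃ x ∈ μ a, ∃ y ∈ μ b, G.Adj x y) ∧ b ∈ μ h

/-- rooted version of `Free`: without a complete minor `K_r` and without a rooted minor `(H, h)` at
some vertex, `c₁` is bounded -/
def RFree {W : Type} (H : SimpleGraph W) (h : W) : Prop :=
  ∀ r : ℕ, ∃ C : ℝ, ∀ (V : Type) [Finite V] (G : SimpleGraph V) (b : V), G.Connected →
    Kr.NoK r G → ¬ RMinor H h G b → DistortionLE G C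

/-- (ONE) gluing at a vertex -/
def OneStmt : Prop :=
  ∀ (W : Type) [Finite W] (H : SimpleGraph W) (S T : Set W) (v : W) (hS : v ∈ S) (hT : v ∈ T),
    S ∪ T = Set.univ → S ∩ T = {v} → (∀ a b, a ∉ T → b ∉ S → ¬ H.Adj a b) →
    (H.induce S).Connected → (H.induce T).Connected → RFree (H.induce T) ⟨v, hT⟩ →
    ∀ h : S, RFree (H.induce S) h → RFree H h.1

/-- (RK33) -/
def RK33Stmt : Prop := ∀ h : Fin 3 ⊕ Fin 3, RFree (completeBipartiteGraph (Fin 3) (Fin 3)) h

/-- (RGRID) -/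
def RGridStmt : Prop := ∀ (n : ℕ) (h : Fin n × Fin n), RFree (grid n) h

/-- the finite connected graphs built from `B` by gluing at a vertex: all blocks in `B` -/
inductive BlockSum (B : ∀ W : Type, SimpleGraph W → Prop) : ∀ {W : Type}, SimpleGraph W → Prop
  | base {W : Type} {H : SimpleGraph W} : B W H → BlockSum B H
  | glue {W : Type} {H : SimpleGraph W} {S T : Set W} {v : W} : S ∪ T = Set.univ →
      S ∩ T = {v} → (∀ a b, a ∉ T → b ∉ S → ¬ H.Adj a b) → BlockSum B (H.induce S) →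
      BlockSum B (H.induce T) → BlockSum B H

/-- (BLOCK) every finite graph each of whose components has only planar blocks and blocks `K_{3,3}`
is a good excluded minor -/
def BlockStmt : Prop :=
  ∀ (W : Type) [Finite W] (H : SimpleGraph W),
    (∀ c : H.ConnectedComponent, BlockSum (fun W' H' => Finite W' ∧ H'.Connected ∧
      (Planar H' ∨ Nonempty (H' ≃g completeBipartiteGraph (Fin 3) (Fin 3)))) (H.induce c.supp)) →
    ∃ C : ℝ, Free H C

end Vale.Agent.P235.H750
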