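import Vale.Agent.P235.H578.OneAsm
import Vale.Agent.P235.H786.Ball

/-!
P235 (helper750): gluing a rooted-good graph to an excluded minor which is only good (`oneFree`),
and the class of graphs all of whose blocks but one are rooted-good.
-/

set_option autoImplicit false

namespace Vale.Agent.P235.H750

open SimpleGraph Vale.Agent.P235 Vale.Agent.P235.H134 Vale.Agent.P235.H606

/-- **(ONEF)** `S` good, `(T, v)` rooted-good: `S` glued to `T` at `v` is good -/
theorem oneFree (hN : NestStmt) (hA : OneAStmt) (hB : OneBStmt) {W : Type} [Finite W]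
    {H : SimpleGraph W} {S T : Set W} {v : W} (hS : v ∈ S) (hT : v ∈ T)
    (hST : S ∪ T = Set.univ) (hST' : S ∩ T = {v}) (hadj : ∀ a b, a ∉ T → b ∉ S → ¬ H.Adj a b)
    (hTc : (H.induce T).Connected) (hRT : RFree (H.induce T) ⟨v, hT⟩)
    (hF : ∃ C : ℝ, Free (H.induce S) C) : ∃ C : ℝ, Free H C := by
  obtain ⟨K, hK1, hK⟩ := hN
  obtain ⟨C, hC1, hC⟩ := hA T (H.induce T) ⟨v, hT⟩ (Nat.card W + 3) (Nat.card W) hTc hRT
  obtain ⟨C', hC'⟩ := hF
  refine ⟨K * (((Nat.card W : ℕ) : ℝ) + 2) ^ 9 * (C + max C' 1), fun V _ G hG hno => ?_⟩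
  have hNo : Kr.NoK (Nat.card W) G := H786.noK_of le_rfl hno
  refine hK (Nat.card W) C (max C' 1) V G
    (StarIn G (Nat.card W + 3) (RAll (H.induce T) ⟨v, hT⟩ G)) hC1
    (le_max_right _ _) hG hNo (fun A B hAB h => H578.starIn_mono hAB h)
    (fun A hAc hAs => hC V G hG hNo A hAc hAs) ?_
  intro X _ Q p hQ hfib hQ1 _
  refine (hC' X Q hQ fun hm => hno ?_).mono (le_max_left _ _)
  obtain ⟨ν, h1, h2, h3⟩ := hm
  obtain ⟨⟨q, hq⟩⟩ := (h1 ⟨v, hS⟩).nonempty
  obtain ⟨⟨b, hb⟩⟩ := (hfib q).1.nonempty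
  have hb' : p b = q := hb
  obtain ⟨μ, g1, g2, g3, -⟩ := hB W H S T v hS hT hST hST' hadj V X G Q p b ⟨v, hS⟩ hG hfib hQ1
    ⟨ν, h1, h2, h3, by rw [hb']; exact hq⟩
  exact ⟨μ, g1, g2, g3⟩

/-- built from one graph of `S0` by gluing connected graphs of the class `B` at a vertex, one after
the other -/
inductive Cored (S0 B : ∀ W : Type, SimpleGraph W → Prop) : ∀ {W : Type}, SimpleGraph W → Prop
  | core {W : Type} {H : SimpleGraph W} : S0 W H → Cored S0 B H
  | glue {W : Type} {H : SimpleGraph W} {S T : Set W} {v : W} : S ∪ T = Set.univ →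
      S ∩ T = {v} → (∀ a b, a ∉ T → b ∉ S → ¬ H.Adj a b) → Cored S0 B (H.induce S) →
      B T (H.induce T) → Cored S0 B H

theorem cored_free (hN : NestStmt) (hA : OneAStmt) (hB : OneBStmt)
    {S0 B : ∀ W : Type, SimpleGraph W → Prop}
    (hS0 : ∀ (W : Type) [Finite W] (H : SimpleGraph W), S0 W H → ∃ C : ℝ, Free H C)
    (hBc : ∀ (W : Type) [Finite W] (H : SimpleGraph W), B W H → H.Connected ∧ ∀ h, RFree H h)
    {W : Type} {H : SimpleGraph W} (hH : Cored S0 B H) : Finite W → ∃ C : ℝ, Free H C := by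
  induction hH with
  | core h => exact fun _ => hS0 _ _ h
  | @glue W H S T v hST hST' hadj _ hT ih =>
    intro hW
    have hvS : v ∈ S := (hST'.symm ▸ Set.mem_singleton v : v ∈ S ∩ T).1
    have hvT : v ∈ T := (hST'.symm ▸ Set.mem_singleton v : v ∈ S ∩ T).2
    obtain ⟨hc, hr⟩ := hBc T (H.induce T) hT
    exact oneFree hN hA hB hvS hvT hST hST' hadj hc (hr _) (ih inferInstance)

end Vale.Agent.P235.H750
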