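import Vale.Agent.P235.ST.H200.Retr
import Vale.Agent.P235.R2.H341.K1
import Vale.Agent.P235.R2.H934.KrK2
import Vale.Agent.P235.R2.H680.RowPot
import Vale.Agent.P235.R2.H907.RowCount
import Vale.Agent.P235.R2.H910.Kr3
import Vale.Agent.P235.H750.VDefs

/-! P235 (helper750): row RET, connected random retractions in graphs without a `K_r` minor
(text of helper200's `retr` with a general constant). -/

set_option autoImplicit false

namespace Vale.Agent.P235.H750

open SimpleGraph Vale.Agent.P235 Vale.Agent.P235.ST.H200R Vale.Agent.P235.ST.H742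

section

variable {V : Type} {G : SimpleGraph V} {ℓ : Sym2 V → ℝ}

theorem retrB [Finite V] {β : ℝ} (hβ : 1 ≤ β) (hc : G.Connected) (hℓ : ∀ e ∈ G.edgeSet, 0 < ℓ e) {X : Set V}
    (hX : X.Nonempty)
    (hcuts : ∀ D ε : ℝ, 0 < D → 0 < ε →
      ∃ (Ω : Type) (_ : Fintype Ω) (_ : Nonempty Ω) (c : Ω → V → V),
      (∀ ω u v, u ∉ X → v ∉ X → ReachOff G X u v → c ω u = c ω v → pathDist G ℓ u v ≤ D) ∧
      ∀ u v, u ∉ X → v ∉ X → G.Adj u v →
        (({ω | c ω u ≠ c ω v}.ncard : ℕ) : ℝ) ≤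
          (β * ℓ s(u, v) / D + ε) * Fintype.card Ω) :
    ∃ (ι : Type) (_ : Fintype ι) (w : ι → ℝ) (π : ι → V → V), (∀ i, 0 ≤ w i) ∧ ∑ i, w i = 1 ∧
      (∀ i v, π i v ∈ X) ∧ (∀ i, ∀ x ∈ X, π i x = x) ∧
      (∀ i v, ∃ q : G.Walk v (π i v), ∀ z ∈ q.support, π i z = π i v) ∧
      ∀ u v, G.Adj u v → ∑ i, w i * pathDist G ℓ (π i u) (π i v) ≤
        3000 * (2 * β + 2) * (2 * β + 2) * ℓ s(u, v) := by
  classical
  set d := pathDist G ℓ with hdd
  have hd : Mt G ℓ d := pd_mt hc hℓ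
  -- the smallest edge
  obtain ⟨D0, hD0, hD0e⟩ : ∃ D0 : ℝ, 0 < D0 ∧ ∀ e ∈ G.edgeSet, D0 ≤ ℓ e := by
    by_cases h : G.edgeSet.Nonempty
    · obtain ⟨e, he, hmin⟩ := Set.exists_min_image G.edgeSet ℓ (Set.toFinite _) h
      exact ⟨ℓ e, hℓ e he, hmin⟩
    · exact ⟨1, one_pos, fun e he => absurd ⟨e, he⟩ h⟩
  -- nearest point of X
  have hnear : ∀ v, ∃ x ∈ X, ∀ x' ∈ X, d v x ≤ d v x' := fun v =>
    Set.exists_min_image X (d v) (Set.toFinite _) hX
  choose xv hxv hxmin using hnear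
  let A : V → ℝ := fun v => d v (xv v)
  have hA0 : ∀ v, 0 ≤ A v := fun v => hd.nn _ _
  have hAX : ∀ v, ∀ x ∈ X, A v ≤ d v x := fun v x hx => hxmin v x hx
  have hAw : ∀ v, ∃ x ∈ X, ∃ p : G.Walk v x, len ℓ p ≤ 2 * A v := by
    intro v
    by_cases hv : v ∈ X
    · refine ⟨v, hv, Walk.nil, ?_⟩
      have := hA0 v
      simp only [len, Walk.edges_nil, List.map_nil, List.sum_nil]
      linarith
    · have : Nonempty (G.Walk v (xv v)) := hc.preconnected v (xv v)
      have hpos : D0 ≤ A v := by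
        refine le_ciInf fun p => ?_
        have hne : v ≠ xv v := fun h => hv (by rw [h]; exact hxv v)
        exact len_ge hℓ hD0e hne p
      have hlt : (⨅ p : G.Walk v (xv v), (p.edges.map ℓ).sum) < 2 * A v := by
        show A v < 2 * A v
        linarith
      obtain ⟨p, hp⟩ := exists_lt_of_ciInf_lt hlt
      exact ⟨xv v, hxv v, p, hp.le⟩
  have hAl : ∀ u v, G.Adj u v → A v ≤ A u + ℓ s(u, v) := by
    intro u v h
    have h1 := hAX v (xv u) (hxv u)
    have h2 := hd.tri v u (xv u)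
    have h3 := hd.comm v u
    have h4 := hd.adj u v h
    show A v ≤ d u (xv u) + ℓ s(u, v)
    linarith
  obtain ⟨M, hM⟩ : ∃ M, ∀ u v, d u v ≤ M := by
    obtain ⟨M, hM⟩ := (Set.finite_range fun p : V × V => d p.1 p.2).bddAbove
    exact ⟨M, fun u v => hM ⟨(u, v), rfl⟩⟩
  have hM0 : 0 ≤ M := by
    obtain ⟨x, -⟩ := hX
    exact (hd.nn x x).trans (hM x x)
  obtain ⟨m, hm⟩ := pow_unbounded_of_one_lt (2 * M / D0) (one_lt_two (α := ℝ))
  have hcuts' : ∀ D : ℝ, 0 < D →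
      ∃ (Ω : Type) (_ : Fintype Ω) (_ : Nonempty Ω) (c : Ω → V → V),
      (∀ ω u v, u ∉ X → v ∉ X → ReachOff G X u v → c ω u = c ω v → d u v ≤ D) ∧
      ∀ u v, u ∉ X → v ∉ X → G.Adj u v →
        ({ω | c ω u ≠ c ω v}.ncard : ℝ) ≤ (2 * β + 2) / (2 * D) * Fintype.card Ω * ℓ s(u, v) := by
    intro D hD
    obtain ⟨Ω, i1, i2, c, h1, h2⟩ := hcuts D (D0 / D) hD (by positivity)
    refine ⟨Ω, i1, i2, c, h1, fun u v hu hv hadj => (h2 u v hu hv hadj).trans ?_⟩
    have h3 : D0 / D ≤ ℓ s(u, v) / D := div_le_div_of_nonneg_right (hD0e _ hadj) hD.le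
    have h4 : (β * ℓ s(u, v) / D + D0 / D) * Fintype.card Ω ≤
        (β * ℓ s(u, v) / D + ℓ s(u, v) / D) * Fintype.card Ω := by gcongr
    refine h4.trans (le_of_eq ?_)
    field_simp
  have hst : St G X d (2 * D0) X id :=
    ⟨subset_rfl, fun _ _ => rfl, fun v hv => hv, fun v hv => ⟨Walk.nil, fun z hz => by
      rw [Walk.support_nil, List.mem_singleton] at hz
      subst hz
      exact ⟨hv, rfl⟩⟩, fun v _ => by
      show d v v ≤ _
      rw [hd.self]
      linarith⟩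
  obtain ⟨ι, inst, w, π, hout⟩ := iter hX hd hℓ hA0 hAX hAw hAl (b := 2 * β + 2) (by linarith)
    (M := 2 * M) (fun u v => by have := hM u v; linarith)
    (fun v => by have := hM v (xv v); show 2 * d v (xv v) ≤ _; linarith) hcuts' m D0 hD0
    (by rw [div_lt_iff₀ hD0] at hm; linarith) X id hst
  have hfix : ∀ i, ∀ x ∈ X, π i x = x := fun i x hx => hout.ext i x hx
  refine ⟨ι, inst, w, π, hout.nn, hout.one, hout.mem, hfix, hout.con, fun u v hadj => ?_⟩
  have hl : 0 < ℓ s(u, v) := hℓ _ hadj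
  by_cases hcase : ℓ s(u, v) ≤ A u ∧ ℓ s(u, v) ≤ A v
  · have hAx : ∀ x ∈ X, A x ≤ 0 := fun x hx => by
      have := hAX x x hx
      rwa [hd.self] at this
    have hu : u ∉ X := fun h => by have := hAx u h; linarith [hcase.1]
    have hv : v ∉ X := fun h => by have := hAx v h; linarith [hcase.2]
    refine (hout.pay u v hu hv hadj hcase.1 hcase.2).trans ?_
    have hb1 : (4 : ℝ) ≤ 2 * β + 2 := by linarith
    have h1 : Pf (2 * β + 2) D0 (min (A u) (A v)) ≤
        (2 * β + 2) * (88 + 656 * (4 * (2 * β + 2))) := by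
      unfold Pf
      have := min_le_right ((2 * β + 2) * min (A u) (A v) / D0) (4 * (2 * β + 2))
      exact mul_le_mul_of_nonneg_left (by linarith) (by linarith)
    have h2 : (2 * β + 2) * (88 + 656 * (4 * (2 * β + 2))) ≤
        3000 * (2 * β + 2) * (2 * β + 2) := by nlinarith
    calc ℓ s(u, v) * Pf (2 * β + 2) D0 (min (A u) (A v)) ≤
          ℓ s(u, v) * (3000 * (2 * β + 2) * (2 * β + 2)) :=
        mul_le_mul_of_nonneg_left (h1.trans h2) hl.le
      _ = _ := by ring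
  · have hr : ∀ v, ∑ j, w j * d v (π j v) ≤ 8 * D0 + 80 * (2 * β + 2) * A v := by
      intro v
      by_cases hv : v ∈ X
      · have : ∑ j, w j * d v (π j v) = 0 := by
          refine Finset.sum_eq_zero fun j _ => ?_
          rw [hfix j v hv, hd.self, mul_zero]
        have h2 : 0 ≤ 80 * (2 * β + 2) * A v := mul_nonneg (by linarith) (hA0 v)
        linarith
      · exact (hout.rad v hv).trans (Rf_le (by linarith) hD0 (hA0 v))
    have hAA : A u + A v ≤ 3 * ℓ s(u, v) := by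
      have h1 := hAl u v hadj
      have h2 := hAl v u hadj.symm
      rw [Sym2.eq_swap] at h2
      by_cases h3 : ℓ s(u, v) ≤ A u
      · have h4 : ¬ ℓ s(u, v) ≤ A v := fun h => hcase ⟨h3, h⟩
        linarith
      · linarith
    have h1 : ∑ j, w j * d (π j u) (π j v) ≤
        ∑ j, (w j * d u (π j u) + w j * ℓ s(u, v) + w j * d v (π j v)) := by
      refine Finset.sum_le_sum fun j _ => ?_
      rw [← mul_add, ← mul_add]
      apply mul_le_mul_of_nonneg_left _ (hout.nn j)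
      have h1 := hd.tri (π j u) u (π j v)
      have h2 := hd.tri u v (π j v)
      have h3 := hd.comm (π j u) u
      have h4 := hd.adj u v hadj
      linarith
    rw [Finset.sum_add_distrib, Finset.sum_add_distrib, ← Finset.sum_mul, hout.one, one_mul] at h1
    have h2 := hr u
    have h3 := hr v
    have h4 := hD0e s(u, v) hadj
    have hb1 : (4 : ℝ) ≤ 2 * β + 2 := by linarith
    have h5 : 80 * (2 * β + 2) * (A u + A v) ≤ 80 * (2 * β + 2) * (3 * ℓ s(u, v)) :=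
      mul_le_mul_of_nonneg_left hAA (by linarith)
    have h7 : (17 : ℝ) + 240 * (2 * β + 2) ≤ 3000 * (2 * β + 2) * (2 * β + 2) := by nlinarith
    have h6 : (17 + 240 * (2 * β + 2)) * ℓ s(u, v) ≤
        3000 * (2 * β + 2) * (2 * β + 2) * ℓ s(u, v) := mul_le_mul_of_nonneg_right h7 hl.le
    linarith

end

/-- (RET) -/
theorem retStmt : RetStmt := by
  intro V _ G ℓ r X hc hM hℓ hX
  have hr0 : (0 : ℝ) ≤ r := by positivity
  have hr2 : (2 : ℝ) ≤ (r : ℝ) + 2 := by linarith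
  have hr3 : (8 : ℝ) ≤ ((r : ℝ) + 2) ^ 3 := by
    have : (2 : ℝ) ^ 3 ≤ ((r : ℝ) + 2) ^ 3 := pow_le_pow_left₀ (by norm_num) hr2 3
    linarith
  have hK3 : Kr.RowK3 := R2.H910.Kr3.rowK3 (Kr.rowK2 Kr.rowK1) Kpr.rowPot Kpr.rowCount
  obtain ⟨ι, inst, w, π, hw, hs, hmem, hid, hcon, hexp⟩ := retrB (β := 8 * ((r : ℝ) + 2) ^ 3)
    (by linarith) hc hℓ hX (by
      intro D ε hD hε
      obtain ⟨N, hN⟩ := exists_nat_gt (((r : ℝ) + 2) / ε)
      have hNr : (0 : ℝ) < N := lt_trans (by positivity) hN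
      have hN0 : 0 < N := by exact_mod_cast hNr
      have hNε : ((r : ℝ) + 2) / N ≤ ε := by
        rw [div_le_iff₀ hNr]
        rw [div_lt_iff₀ hε] at hN
        linarith
      obtain ⟨c, h1, h2⟩ := hK3 V G ℓ r hc hM hℓ (D / (8 * ((r : ℝ) + 2) ^ 2)) N
        (by positivity) hN0
      have : Nonempty (Fin N) := ⟨⟨0, hN0⟩⟩
      refine ⟨Fin (r + 2) → Fin N, inferInstance, inferInstance, c, fun ω u v _ _ _ he => ?_,
        fun u v _ _ huv => ?_⟩
      · have h3 := h1 ω u v he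
        have h4 : 8 * ((r : ℝ) + 2) ^ 2 * (D / (8 * ((r : ℝ) + 2) ^ 2)) = D := by field_simp
        rwa [h4] at h3
      · have h3 := h2 u v huv
        refine h3.trans ?_
        have hcard : ((Fintype.card (Fin (r + 2) → Fin N) : ℕ) : ℝ) = (N : ℝ) ^ (r + 2) := by
          simp [Fintype.card_fin]
        rw [hcard]
        have h5 : ((r : ℝ) + 2) * (N : ℝ) ^ (r + 2) *
            (ℓ s(u, v) / (D / (8 * ((r : ℝ) + 2) ^ 2)) + 1 / N) =
            (8 * ((r : ℝ) + 2) ^ 3 * ℓ s(u, v) / D + ((r : ℝ) + 2) / N) * (N : ℝ) ^ (r + 2) := by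
          field_simp
        rw [h5]
        exact mul_le_mul_of_nonneg_right (by linarith) (by positivity))
  refine ⟨ι, inst, w, π, hw, hs, fun i => ⟨hmem i, hid i, hcon i⟩, fun u v huv => ?_⟩
  refine (hexp u v huv).trans (mul_le_mul_of_nonneg_right ?_
    (hℓ _ (G.mem_edgeSet.mpr huv)).le)
  have h6 : ((r : ℝ) + 2) ^ 6 = ((r : ℝ) + 2) ^ 3 * ((r : ℝ) + 2) ^ 3 := by ring
  rw [h6]
  nlinarith

end Vale.Agent.P235.H750
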