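import Vale.Agent.P235.H750.VDefs

/-! # Nesting theorem: the two halves of `OneStmt` (helper750) -/

set_option autoImplicit false

namespace Vale.Agent.P235.H750

open SimpleGraph Vale.Agent.P235 Vale.Agent.P235.H134 Vale.Agent.P235.H606

/-- `A` contains a star: a connected `Z` and `N` connected sets `L i` with property `P0`, pairwise
disjoint and disjoint from `Z`, each adjacent to `Z` -/
def StarIn {V : Type} (G : SimpleGraph V) (N : ℕ) (P0 : Set V → Prop) (A : Set V) : Prop :=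
  ∃ (Z : Set V) (L : Fin N → Set V), Z ⊆ A ∧ (∀ i, L i ⊆ A) ∧ (G.induce Z).Connected ∧
    (∀ i, (G.induce (L i)).Connected ∧ P0 (L i)) ∧ (∀ i, Disjoint Z (L i)) ∧
    (∀ i j, i ≠ j → Disjoint (L i) (L j)) ∧ ∀ i, ∃ z ∈ Z, ∃ x ∈ L i, G.Adj z x

/-- the set `A` contains `(T, t)` rooted at each of its vertices -/
def RAll {V W : Type} (T : SimpleGraph W) (t : W) (G : SimpleGraph V) (A : Set V) : Prop :=
  ∀ x ∈ A, ∃ μ : W → Set V, (∀ a, (G.induce (μ a)).Connected ∧ μ a ⊆ A) ∧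
    (∀ a b, a ≠ b → Disjoint (μ a) (μ b)) ∧
    (∀ a b, T.Adj a b → ∃ x ∈ μ a, ∃ y ∈ μ b, G.Adj x y) ∧ x ∈ μ t

/-- (ONE-a) connected sets without such a star are good; from `NestStmt` -/
def OneAStmt : Prop :=
  ∀ (W : Type) [Finite W] (T : SimpleGraph W) (t : W) (N r : ℕ), T.Connected → RFree T t →
    ∃ C : ℝ, 1 ≤ C ∧ ∀ (V : Type) [Finite V] (G : SimpleGraph V), G.Connected → Kr.NoK r G →
      ∀ A : Set V, (G.induce A).Connected → ¬ StarIn G N (RAll T t G) A →
        DistortionLE (G.induce A) C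

/-- (ONE-b) the model: `Q` = quotient of `G` by `p`, every fibre contains a star -/
def OneBStmt : Prop :=
  ∀ (W : Type) [Finite W] (H : SimpleGraph W) (S T : Set W) (v : W) (_ : v ∈ S) (hT : v ∈ T),
    S ∪ T = Set.univ → S ∩ T = {v} → (∀ a b, a ∉ T → b ∉ S → ¬ H.Adj a b) →
    ∀ (V X : Type) [Finite V] [Finite X] (G : SimpleGraph V) (Q : SimpleGraph X) (p : V → X)
      (b : V) (h : S), G.Connected →
      (∀ a, (G.induce {v | p v = a}).Connected ∧
        StarIn G (Nat.card W + 3) (RAll (H.induce T) ⟨v, hT⟩ G) {v | p v = a}) →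
      (∀ x y, Q.Adj x y → ∃ u v, G.Adj u v ∧ p u = x ∧ p v = y) →
      RMinor (H.induce S) h Q (p b) → RMinor H h.1 G b

end Vale.Agent.P235.H750
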